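import Vale.Agent.P275HK.Bnd
import Vale.Agent.P275NA.Main
import Vale.Agent.P275NU.Rel
import Vale.Agent.P275NP.Rep
import Vale.Agent.P275IN.Fam

/-!
P275 (helper28): continuity of the nonabelian Hodge section along subsequences.
-/

set_option linter.all false

open scoped Matrix.Norms.Operator Topology ComplexOrder ComplexConjugate ContDiff
open Filter Set Matrix Complex Metric
open Vale.Agent.P281Z.Hm
open Vale.Agent.P275NA Vale.Agent.P275HK
open Vale.Agent.P275GC (At)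
open Vale.Agent.P275MO (tf Mod Ob Dat Good FamOn KUR Std IsOb)
open Vale.Agent.P275NU (Con PF Rel Cl NuR MK CONT na dat)
open Vale.Agent.P275NP (ea)
open Vale.Agent.P275Z (tauX)

noncomputable section

namespace Vale.Agent.P275NC

variable {C : Type} [TopologicalSpace C] {A : At C} {n : ℕ} {l : Cy A ℂ}
  {g : Cy A (Mn n)} {a h : Fm A (Mn n)} {z : ℂ}

theorem tw_one (A : At C) : Tw A A.d fun _ _ => 1 :=
  ⟨A.cc_d, fun _ => contDiffOn_const, fun _ _ _ => one_pos, fun _ _ _ _ => mul_comm _ _⟩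

theorem pf_of_he {c : ℝ} (e : HE A (fun _ _ => 1) a h c) : PF A a h := fun i w hw => by
  have := e i w hw
  rw [HK, show sa A (fun _ _ => 1) a i = a i from funext fun z => by simp [sa]] at this
  rw [this, ← zero_add (_ • _), tf_add_smul, tf, trace_zero, mul_zero, zero_smul, sub_zero]

theorem cn_rsmul {h : ℂ → Mn n} {c : ℂ} (hc : c ≠ 0) (hd : DifferentiableAt ℝ h z)
    (h0 : (h z).det ≠ 0) : cn (fun x => c • h x) z = cn h z := by
  have e : (c • h z)⁻¹ = c⁻¹ • (h z)⁻¹ := inv_eq_left_inv (by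
    rw [Matrix.smul_mul, Matrix.mul_smul, smul_smul, inv_mul_cancel₀ hc, one_smul,
      nonsing_inv_mul _ h0.isUnit])
  rw [cn, cn, e, dz, wd_msmul _ hd, Matrix.smul_mul, Matrix.mul_smul, smul_smul,
    inv_mul_cancel₀ hc, one_smul]

theorem tlu_const {F : Type} [UniformSpace F] (f : ℂ → F) (U : Set ℂ) :
    TendstoLocallyUniformlyOn (fun _ : ℕ => f) f atTop U := fun _ hu _ _ =>
  ⟨U, self_mem_nhdsWithin, Eventually.of_forall fun _ _ _ => refl_mem_uniformity hu⟩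

/-- harmonic metrics converge along a subsequence -/
theorem hm_seq [T2Space C] [ConnectedSpace C] (hn : 0 < n) (hl : A.Cc l) {gs : ℕ → Cy A (Mn n)}
    {as : ℕ → Fm A (Mn n)} (H : ∀ k, Con A l 0 (gs k) (as k) ∧ Stab A (gs k) (as k))
    (c : Con A l 0 g a) (st : Stab A g a) (cg : CvC A gs g) (ca : CvF A as a) {r : ℝ} (h1 : 1 < r)
    (h2 : r < A.R) : ∃ (σ : ℕ → ℕ) (hs : ℕ → Fm A (Mn n)) (h : Fm A (Mn n)), StrictMono σ ∧
      (∀ k, A.MtM ∞ (gs (σ k)) (hs k) ∧ PF A (as (σ k)) (hs k)) ∧ A.MtM ∞ g h ∧ PF A a h ∧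
      ∀ i, ∀ z ∈ ball (0 : ℂ) r, Cq (fun k => hs k i) z (h i z) ∧
        Cq (fun k => cn (hs k i)) z (cn (h i) z) := by
  have tw := tw_one A
  choose hs hH he using fun k => ex_ok A n A.d (fun _ _ => 1) (gs k) (as k) hn tw
    (con_hig hn (H k).1) (H k).2
  have dg : ∀ k, A.degM (gs k) = A.degM g := fun k =>
    (At.deg_congr (H k).1.cc.det hl (H k).1.det).trans (At.deg_congr c.cc.det hl c.det).symm
  obtain ⟨σ, s, h, hσ, s0, -, m, e, c1, c2⟩ := clo_ok A n (fun _ => A.d) (fun _ _ _ => 1) A.d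
    (fun _ _ => 1) gs as (fun k => A.mtM (gs k)) hs g a (A.mtM g) (fun _ => 0) 0 0 hn
    ⟨fun _ => tw, tw, fun i j => tlu_const _ _, fun i => tlu_const _ _, 0, fun k i z _ => by
      rw [lp_const, abs_zero]⟩
    (fun k => ⟨con_hig hn (H k).1, hH k, (H k).1.cc.mtM, dg k, le_rfl, he_iff.1 (by
      have := he k
      rwa [ec, dg k, ← ec] at this), fun b => absurd b (lt_irrefl 0)⟩) (con_hig hn c) c.cc.mtM st
    cg ca (cvF_of c.cc.mtM.sm.ct fun i z hz => (cq_mtM (fun k => (H k).1.cc) c.cc cg hz i).1)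
    tendsto_const_nhds r h1 h2
  have s1 : ∀ k, (s k : ℂ) ≠ 0 := fun k => ofReal_ne_zero.2 (s0 k).ne'
  have e1 : ∀ k i, ∀ z ∈ ball (0 : ℂ) A.R, cn (fun x => (s k : ℂ) • hs (σ k) i x) z =
      cn (hs (σ k) i) z := fun k i z hz => cn_rsmul (s1 k) ((hH _).sm.df (by simp) hz i)
        (pd_ne ((hH _).pos i z hz))
  refine ⟨σ, fun k i z => (s k : ℂ) • hs (σ k) i z, h, hσ, fun k => ⟨⟨fun i z hz =>
    (P275GC.cd_csmul _ ((hH _).sm.at hz i)).contDiffWithinAt, fun i z hz =>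
      ((hH _).pos i z hz).smul (by exact_mod_cast s0 k), fun i j z hz => by
        beta_reduce
        rw [(hH _).tr i j z hz, Matrix.mul_smul, Matrix.smul_mul]⟩, fun i z hz => ?_⟩, m,
    pf_of_he (he_iff.2 e), fun i z hz => ⟨c1.cq (A := A.res r h1 h2.le) m.sm.res.ct hz i, ?_⟩⟩
  · rw [← pf_of_he (he (σ k)) i z hz, hk, hk, P275NA.cv, P275NA.cv, db, wb_congr (eventually_of_mem
      (isOpen_ball.mem_nhds hz) (e1 k i)), br, br, ad_rsmul (s1 k) (pd_ne ((hH _).pos i z hz))]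
  · exact (c2.cq (A := A.res r h1 h2.le) (fun i z hz => (cd_cn0 ((m.sm.at (ball_subset_ball h2.le hz)
      i).of_le (by simp)) (pd_ne (m.pos i z (ball_subset_ball h2.le hz)))).continuousAt.continuousWithinAt)
      hz i).congr' isOpen_ball hz fun k x hx => (e1 k i x (ball_subset_ball h2.le hx)).symm

/-- continuous convergence gives a family over the one point compactification -/
theorem co_op {F : Type} [TopologicalSpace F] {u : OnePoint ℕ → ℂ → F} {U : Set ℂ} (hU : IsOpen U)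
    (hc : ∀ t, ContinuousOn (u t) U) (h : ∀ x ∈ U, Cq (fun k : ℕ => u k) x (u OnePoint.infty x)) :
    ContinuousOn (fun p : OnePoint ℕ × ℂ => u p.1 p.2) (univ ×ˢ U) := by
  rintro ⟨t, x⟩ ⟨-, hx⟩
  refine ContinuousAt.continuousWithinAt ?_
  have c := fun t => ((hc t).continuousAt (hU.mem_nhds hx)).tendsto
  rw [ContinuousAt, nhds_prod_eq]
  induction t using OnePoint.rec with
  | infty =>
    rw [OnePoint.nhds_infty_eq, coclosedCompact_eq_cocompact, cocompact_eq_cofinite,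
      Nat.cofinite_eq_atTop, sup_prod, tendsto_sup, prod_map_left, pure_prod]
    exact ⟨h x hx, c _⟩
  | coe k =>
    rw [OnePoint.nhds_coe_eq, nhds_discrete, map_pure, pure_prod]
    exact c _

theorem cont_op {F : Type} [TopologicalSpace F] {u : OnePoint ℕ → F}
    (h : Tendsto (fun k : ℕ => u k) atTop (𝓝 (u OnePoint.infty))) : Continuous u :=
  (OnePoint.continuous_iff_from_nat u).2 h

section co
variable {P : Type} [TopologicalSpace P] {u v : P → Mn n} {s : Set P}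

theorem co_mul (hu : ContinuousOn u s) (hv : ContinuousOn v s) :
    ContinuousOn (fun p => u p * v p) s := hu.mul hv

theorem co_ad (hu : ContinuousOn u s) (h0 : ∀ p ∈ s, (u p).det ≠ 0) (hv : ContinuousOn v s) :
    ContinuousOn (fun p => ad (u p) (u p) (v p)) s :=
  co_mul (co_mul (P275MB.co_inv hu h0)
    (continuous_id.matrix_conjTranspose.comp_continuousOn hv)) hu

theorem co_tf (hu : ContinuousOn u s) : ContinuousOn (fun p => tf (u p)) s :=
  hu.sub ((continuousOn_const.mul (continuous_id.matrix_trace.comp_continuousOn hu)).smul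
    continuousOn_const)

end co

variable {T : Type} [TopologicalSpace T] {lam : T → ℂ} {x : T → C} {gs : T → Cy A (Mn n)}
  {as hs G : T → Fm A (Mn n)} {V : Set T}

/-- frames for the Dolbeault operators of a family -/
theorem ex_G (t : T) (H : ∀ t, Con A l 0 (gs t) (as t) ∧ A.MtM ∞ (gs t) (hs t))
    (cl : Continuous lam)
    (ca : ∀ i, ContinuousOn (fun p : T × ℂ => as p.1 i p.2) (univ ×ˢ ball 0 A.R))
    (ch : ∀ i, ContinuousOn (fun p : T × ℂ => hs p.1 i p.2) (univ ×ˢ ball 0 A.R))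
    (cc : ∀ i, ContinuousOn (fun p : T × ℂ => cn (hs p.1 i) p.2) (univ ×ˢ ball 0 A.R)) {r : ℝ}
    (h2 : r < A.R) : ∃ V ∈ 𝓝 t, ∃ G : T → Fm A (Mn n),
      (∀ i, ContinuousOn (fun p : T × ℂ => G p.1 i p.2) (V ×ˢ ball 0 r) ∧
        ContinuousOn (fun p : T × ℂ => dz (G p.1 i) p.2) (V ×ˢ ball 0 r)) ∧
      ∀ s ∈ V, ∀ i, ContDiffOn ℝ ∞ (G s i) (ball 0 r) ∧ ∀ w ∈ ball (0 : ℂ) r, (G s i w).det = 1 ∧
        db (G s i) w + (lam s • ad (hs s i w) (hs s i w) (as s i w)) * G s i w = 0 := by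
  have c0 : ∀ {U : Set (T × ℂ)}, ContinuousOn (fun p : T × ℂ => lam p.1) U :=
    (cl.comp continuous_fst).continuousOn
  have c1 := fun i => co_ad (ch i) (fun p hp => pd_ne ((H p.1).2.pos i p.2 hp.2)) (ca i)
  choose W hW F f0 f1 f2 f3 using fun i => P275IN.fint n T
    (fun s w => lam s • ad (hs s i w) (hs s i w) (as s i w)) univ t r A.R h2 (mem_univ t)
    (fun s _ => P275NU.cd_α (H s).1.hol (H s).2 _ i) (fun s _ => P275NU.tr_α (H s).1 (H s).2 _ i)
    (c0.smul (c1 i))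
  have sub : ∀ i, (⋂ i, W i) ×ˢ ball (0 : ℂ) r ⊆ W i ×ˢ ball 0 r := fun i =>
    prod_mono (iInter_subset _ i) Subset.rfl
  refine ⟨⋂ i, W i, iInter_mem.2 fun i => nhdsWithin_univ t ▸ hW i, fun s i => F i s, fun i =>
    ⟨(f1 i).mono (sub i), (f2 i ((c0.smul ((co_mul (c1 i) (cc i)).sub (co_mul (cc i)
      (c1 i)))).congr fun p hp => ?_)).mono (sub i)⟩, fun s b i => f3 i s (mem_iInter.1 b i)⟩
  have d := (H p.1).2.sm.df (by simp) hp.2 i
  have d0 := pd_ne ((H p.1).2.pos i p.2 hp.2)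
  have an := (H p.1).1.hol.an hp.2 i
  beta_reduce
  rw [dz, wd_msmul _ (df_ad d d0 d (hol_df an)), ← dz, dz_ad d d0 d d0 (hol_df an), db_hol an,
    ad_zero, zero_add]
  rfl

/-- the family of connections -/
theorem fam_new (hn : 0 < n) (i0 : Fin A.N) (hx : ∀ t ∈ V, x t ∈ (A.e i0).source)
    (H : ∀ t ∈ V, Con A l (lam t) (fc A (G t) (gs t)) (na (lam t) (as t) (hs t) (G t)))
    (d : ∀ t ∈ V, ∀ i, ∀ w ∈ ball (0 : ℂ) A.R, (G t i w).det = 1) (cl : Continuous lam)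
    (cx : Continuous x)
    (cg : ∀ i j, ContinuousOn (fun p : T × ℂ => gs p.1 i j p.2) (V ×ˢ A.O i j))
    (ca : ∀ i, ContinuousOn (fun p : T × ℂ => as p.1 i p.2) (V ×ˢ ball 0 A.R))
    (cc : ∀ i, ContinuousOn (fun p : T × ℂ => cn (hs p.1 i) p.2) (V ×ˢ ball 0 A.R))
    (cG : ∀ i, ContinuousOn (fun p : T × ℂ => G p.1 i p.2) (V ×ˢ ball 0 A.R) ∧
      ContinuousOn (fun p : T × ℂ => dz (G p.1 i) p.2) (V ×ˢ ball 0 A.R)) :
    FamOn A l (fun t => dat A (lam t) (x t) (fc A (G t) (gs t)) (na (lam t) (as t) (hs t) (G t))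
      fun i => fc A (G t) (gs t) i i0 (A.e i (x t))) V := by
  have c0 : ∀ {U : Set (T × ℂ)}, ContinuousOn (fun p : T × ℂ => lam p.1) U :=
    (cl.comp continuous_fst).continuousOn
  have ci := fun i => P275MB.co_inv (cG i).1 fun p hp => (d p.1 hp.1 i p.2 hp.2).trans_ne one_ne_zero
  have c1 : ∀ i j, ContinuousOn (fun p : T × ℂ => fc A (G p.1) (gs p.1) i j p.2) (V ×ˢ A.O i j) :=
    fun i j => co_mul (co_mul ((ci i).mono fun p hp => ⟨hp.1, hp.2.1⟩) (cg i j)) ((cG j).1.comp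
      (f := fun p : T × ℂ => (p.1, A.tr i j p.2)) (continuousOn_fst.prodMk
        ((A.hol i j).continuousOn.comp continuousOn_snd fun p hp => hp.2))
      fun p hp => ⟨hp.1, At.tr_ball hp.2⟩)
  refine ⟨fun t ht => P275NU.good_of_con (H t ht) (fun i b => cc_ne (H t ht).cc
    (At.mem_O b (hx t ht))) fun i j b c => ?_, cl.continuousOn, cx.continuousOn, continuousOn_const,
    c1, fun i => (co_mul (ci i) ((c0.smul (cG i).2).add (co_mul ((c0.smul (co_tf (cc i))).add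
      (ca i)) (cG i).1))).mono fun p hp => ⟨hp.1, hp.2.1⟩, fun i => (c1 i i0).comp
      (f := fun t => (t, A.e i (x t))) (continuousOn_id.prodMk ((A.e i).continuousOn.comp
        cx.continuousOn fun t ht => ht.2)) fun t ht => ⟨ht.1, At.mem_O ht.2 (hx t ht.1)⟩⟩
  rw [(H t ht).cc.mul i j i0 _ (At.mem_O b c) (At.mem_O b (hx t ht)), At.tr_e b]

theorem cl_mono {y : Mod A l (tauX n)} {r r' : ℝ} {h1 : 1 < r} {h2 : r ≤ A.R}
    (c : Cl y r h1 h2 g a) (h1' : 1 < r') (h3 : r' ≤ r) : Cl y r' h1' (h3.trans h2) g a := by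
  obtain ⟨c, z, e, b, p, q⟩ := c
  exact ⟨c.mono h1' h3, z, e, P275MB.Good.mono b h1' h3, p,
    fun i w hw => q i w ⟨ball_subset_ball h3 hw.1, hw.2⟩⟩

theorem cl_stab [T2Space C] (hl : A.Cc l) {y : Mod A l (tauX n)} {r : ℝ} {h1 : 1 < r}
    {h2 : r ≤ A.R} (c : Cl y r h1 h2 g a) (h0 : y.lam = 0) :
    Con (A.res r h1 h2) l 0 g a ∧ Stab (A.res r h1 h2) g a := by
  obtain ⟨c, z, rfl, b, rfl, q⟩ := c
  exact ⟨h0 ▸ c, (P275AD.Agr.stab_iff (fun i w hw => (q i w hw).symm) c.hol b hl.res h0).1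
    (P275MB.IsOb.stab z.2 b)⟩

/-- **CONT** -/
theorem cont {d : ℤ} (hS : Std A l n d) (kur : KUR n A l) (mk : MK A n l) : CONT A n l := by
  intro lams lam ys y h0 tl ty
  have := hS.t2
  have := hS.conn
  have hn : 0 < n := two_pos.trans_le hS.two
  have y0 : y.lam = 0 := tendsto_nhds_unique ((P275MB.cont_lam.tendsto y).comp ty)
    (tendsto_const_nhds.congr fun k => (h0 k).symm)
  obtain ⟨r, h1, h2, N, zs, z, hz, ez, gz, cg, ca⟩ := P275NP.exists_reps kur ty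
  have cz := fun m => (hz m).1 ▸ P275NP.cl_ea hS.cc (zs m) (hz m).2
  have c0 := ez ▸ P275NP.cl_ea hS.cc z gz
  obtain ⟨r1, a1, b1⟩ := exists_between h1
  obtain ⟨r2, a2, b2⟩ := exists_between a1
  obtain ⟨σ, hs, h, hσ, H, m, p, cq⟩ := hm_seq (A := A.res r h1 h2) hn hS.cc.res
    (fun k => cl_stab hS.cc (cz k) (h0 _)) (cl_stab hS.cc c0 y0).1 (cl_stab hS.cc c0 y0).2 cg ca
    a1 b1
  have tσ : Tendsto (fun k => σ k + N) atTop atTop :=
    (tendsto_add_atTop_nat N).comp hσ.tendsto_atTop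
  let Y : OnePoint ℕ → Mod A l (tauX n) := fun t => t.elim y fun k => ys (σ k + N)
  let L : OnePoint ℕ → ℂ := fun t => t.elim lam fun k => lams (σ k + N)
  let g : OnePoint ℕ → Cy A (Mn n) := fun t => t.elim z.1.g fun k => (zs (σ k)).1.g
  let a : OnePoint ℕ → Fm A (Mn n) := fun t => t.elim (ea A z.1) fun k => ea A (zs (σ k)).1
  let hh : OnePoint ℕ → Fm A (Mn n) := fun t => t.elim h hs
  have K : ∀ t, (Y t).lam = 0 ∧ Cl (Y t) r h1 h2 (g t) (a t) ∧ (A.res r h1 h2).MtM ∞ (g t) (hh t) ∧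
      PF (A.res r h1 h2) (a t) (hh t) := fun t => by
    induction t using OnePoint.rec with
    | infty => exact ⟨y0, c0, m, p⟩
    | coe k => exact ⟨h0 _, cz _, H k⟩
  have Kc := fun t => (cl_stab hS.cc (K t).2.1 (K t).1).1
  have cL : Continuous L := cont_op (tl.comp tσ)
  have cY : Continuous Y := cont_op (ty.comp tσ)
  have s1 := ball_subset_ball (x := (0 : ℂ)) b1.le
  have s2 := ball_subset_ball (x := (0 : ℂ)) b2.le
  have ca' : ∀ i, ContinuousOn (fun p : OnePoint ℕ × ℂ => a p.1 i p.2) (univ ×ˢ ball 0 r1) :=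
    fun i => co_op (u := fun t => a t i) isOpen_ball (fun t => ((Kc t).hol i).continuousOn.mono s1)
      fun x hx => (ca.cq (fun i => ((Kc OnePoint.infty).hol i).continuousOn) (s1 hx) i).sub' hσ
  have cg' : ∀ i j, ContinuousOn (fun p : OnePoint ℕ × ℂ => g p.1 i j p.2)
      (univ ×ˢ (A.res r h1 h2).O i j) := fun i j =>
    have o := At.O_open (A := A.res r h1 h2) i j
    co_op (u := fun t => g t i j) o (fun t => ((Kc t).cc.hol i j).continuousOn) fun x hx =>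
      (cq_of o (cg i j) hx ((Kc OnePoint.infty).cc.an hx).continuousAt).sub' hσ
  have ch' : ∀ i, ContinuousOn (fun p : OnePoint ℕ × ℂ => hh p.1 i p.2) (univ ×ˢ ball 0 r1) :=
    fun i => co_op (u := fun t => hh t i) isOpen_ball (fun t => ((K t).2.2.1.sm.ct i).mono s1)
      fun x hx => (cq i x hx).1
  have cc' : ∀ i, ContinuousOn (fun p : OnePoint ℕ × ℂ => cn (hh p.1 i) p.2) (univ ×ˢ ball 0 r1) :=
    fun i => co_op (u := fun t => cn (hh t i)) isOpen_ball (fun t x hx => (cd_cn0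
      (((K t).2.2.1.sm.at (s1 hx) i).of_le (by simp))
      (pd_ne ((K t).2.2.1.pos i x (s1 hx)))).continuousAt.continuousWithinAt) fun x hx => (cq i x hx).2
  obtain ⟨V, hV, G, cG, hG⟩ := ex_G (A := A.res r1 a1 (b1.le.trans h2)) (lam := L) OnePoint.infty
    (fun t => ⟨(Kc t).mono a1 b1.le, P275NU.mtm_mono (K t).2.2.1 a1 b1.le⟩) cL ca' ch' cc' b2
  have b3 : r2 ≤ r := b2.le.trans b1.le
  have R : ∀ t ∈ V, Rel (A.res r2 a2 (b3.trans h2)) (L t) (g t) (a t) (hh t) (G t)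
      (fc A (G t) (g t)) (na (L t) (a t) (hh t) (G t)) := fun t ht => P275NU.rel_of
    (A := A.res r2 a2 (b3.trans h2)) (fun i => (hG t ht i).1) (fun i w hw => ((hG t ht i).2 w hw).1)
    fun i w hw => ((hG t ht i).2 w hw).2
  have Cn := fun t ht => (R t ht).con hn ((Kc t).mono a2 b3) (P275NU.mtm_mono (K t).2.2.1 a2 b3)
    ((K t).2.2.2.mono a2 b3) fun i w hw => ((hG t ht i).2 w hw).1
  obtain ⟨i0, hi⟩ := (A.res r2 a2 (b3.trans h2)).cov y.x
  have cx := P275MB.cont_x.comp cY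
  set W := V ∩ (fun t => (Y t).x) ⁻¹' ((A.res r2 a2 (b3.trans h2)).e i0).source
  have hW : W ∈ 𝓝 OnePoint.infty := inter_mem hV (cx.continuousAt.preimage_mem_nhds
    (((A.res r2 a2 (b3.trans h2)).e i0).open_source.mem_nhds hi.1))
  have f := fam_new (A := A.res r2 a2 (b3.trans h2)) (x := fun t => (Y t).x) (V := W) hn i0
    (fun t ht => ht.2) (fun t ht => Cn t ht.1) (fun t ht i w hw => ((hG t ht.1 i).2 w hw).1) cL cx
    (fun i j => (cg' i j).mono fun p hp => ⟨trivial, At.res_O.2 ⟨(At.res_O.1 hp.2).1,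
      ball_subset_ball b3 (At.res_O.1 hp.2).2.1, ball_subset_ball b3 (At.res_O.1 hp.2).2.2⟩⟩)
    (fun i => (ca' i).mono fun p hp => ⟨trivial, s2 hp.2⟩)
    (fun i => (cc' i).mono fun p hp => ⟨trivial, s2 hp.2⟩)
    fun i => ⟨(cG i).1.mono fun p hp => ⟨hp.1.1, hp.2⟩, (cG i).2.mono fun p hp => ⟨hp.1.1, hp.2⟩⟩
  let F : W → Ob A l (tauX n) := fun s => ⟨_, mk (Y s) r2 a2 (b3.trans h2) (g s) (a s) (hh s) (G s)
    _ (K s).1 rfl (cl_mono (K s).2.1 a2 b3) (R s s.2.1) (f.good s s.2) rfl⟩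
  have nu : ∀ s : W, NuR (Y s) (F s).pt := fun s => ⟨(K s).1, rfl, r2, a2, b3.trans h2, g s, _, a s,
    hh s, G s, _, cl_mono (K s).2.1 a2 b3, ⟨Cn s s.2.1, F s, rfl, f.good s s.2, rfl,
      fun _ _ _ => rfl⟩, P275NU.mtm_mono (K s).2.2.1 a2 b3, (K s).2.2.2.mono a2 b3, R s s.2.1⟩
  have t0 : Tendsto (fun k : ℕ => (k : OnePoint ℕ)) atTop (𝓝 OnePoint.infty) := by
    simpa only [coclosedCompact_eq_cocompact, cocompact_eq_cofinite, Nat.cofinite_eq_atTop]
      using OnePoint.tendsto_coe_infty (X := ℕ)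
  obtain ⟨M, hM⟩ := eventually_atTop.1 (t0.eventually hW)
  have ct := P275MO.FamAt.continuousAt (F := F) (t := ⟨_, mem_of_mem_nhds hW⟩)
    ⟨r2, a2, b3.trans h2, univ, univ_mem, P275MB.FamOn.comp f continuous_subtype_val.continuousOn
      fun s _ => s.2⟩
  exact ⟨fun k => σ (k + M) + N, fun k => (F ⟨_, hM (k + M) (Nat.le_add_left _ _)⟩).pt,
    (F ⟨_, mem_of_mem_nhds hW⟩).pt, fun _ _ e => Nat.add_lt_add_right (hσ (Nat.add_lt_add_right e M)) N,
    fun k => ⟨rfl, nu ⟨_, hM (k + M) (Nat.le_add_left _ _)⟩⟩, rfl, nu ⟨_, mem_of_mem_nhds hW⟩,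
    ct.tendsto.comp (tendsto_subtype_rng.2 (t0.comp (tendsto_add_atTop_nat M)))⟩

end Vale.Agent.P275NC
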